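import Mathlib

open MeasureTheory

namespace Vale.Agent.Lib.P249

lemma exp_mul_le_of_unit {θ ρ : ℝ} (h0 : 0 ≤ ρ) (h1 : ρ ≤ 1) :
    Real.exp (θ * ρ) ≤ 1 + ρ * (Real.exp θ - 1) := by
  have := convexOn_exp.2 (Set.mem_univ θ) (Set.mem_univ 0) h0 (by linarith : 0 ≤ 1 - ρ)
    (by ring)
  simp only [smul_eq_mul, mul_zero, add_zero, Real.exp_zero, mul_one] at this
  rw [mul_comm θ ρ]
  linarith

variable {Ω : Type*} [MeasurableSpace Ω] {μ : Measure Ω} {P : Type*} [Fintype P]

/-- One selection step: a point of positive envelope where the linear potential does not grow. -/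
lemma select_step (F : P → Ω → ℝ) (G : Ω → ℝ) (e0 : P)
    (hF0 : ∀ e ω, 0 ≤ F e ω) (hFi : ∀ e, Integrable (F e) μ) (hF1 : ∀ e, ∫ ω, F e ω ∂μ = 1)
    (hFG : ∀ e ω, F e ω ≤ G ω) (hGi : Integrable G μ) {θ : ℝ} (hθ : 0 < θ)
    (cp cm : P → ℝ) (hcp : ∀ e, 0 ≤ cp e) (hcm : ∀ e, 0 ≤ cm e) :
    ∃ ω, 0 < G ω ∧
      ∑ e, (cp e * (Real.exp (θ * (F e ω / G ω)) /
              (1 + (Real.exp θ - 1) / ∫ ω, G ω ∂μ)) +
            cm e * (Real.exp (-θ * (F e ω / G ω)) /
              (1 - (1 - Real.exp (-θ)) / ∫ ω, G ω ∂μ))) ≤ ∑ e, (cp e + cm e) := by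
  classical
  set S := ∫ ω, G ω ∂μ with hS
  have hG0 : ∀ ω, 0 ≤ G ω := fun ω => le_trans (hF0 e0 ω) (hFG e0 ω)
  have hS1 : 1 ≤ S := by
    rw [← hF1 e0]
    exact integral_mono (hFi e0) hGi (fun ω => hFG e0 ω)
  have hS0 : 0 < S := by linarith
  have hE1 : 0 < Real.exp θ - 1 := by
    have := Real.add_one_lt_exp hθ.ne'
    linarith
  have hE2 : 0 < 1 - Real.exp (-θ) := by
    have : Real.exp (-θ) < 1 := by
      rw [Real.exp_lt_one_iff]; linarith
    linarith
  have hE3 : 1 - Real.exp (-θ) < 1 := by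
    have := Real.exp_pos (-θ)
    linarith
  set α := 1 + (Real.exp θ - 1) / S with hα
  set β := 1 - (1 - Real.exp (-θ)) / S with hβ
  have hα0 : 0 < α := by positivity
  have hβ0 : 0 < β := by
    rw [hβ, sub_pos, div_lt_one hS0]
    linarith
  -- the function H
  set H : Ω → ℝ := fun ω => ∑ e, (cp e * ((G ω + F e ω * (Real.exp θ - 1)) / α) +
      cm e * ((G ω - F e ω * (1 - Real.exp (-θ))) / β) - (cp e + cm e) * G ω) with hH
  have hHi : Integrable H μ := by
    apply integrable_finsetSum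
    intro e _
    apply Integrable.sub
    · apply Integrable.add
      · apply Integrable.const_mul
        apply Integrable.div_const
        exact hGi.add ((hFi e).mul_const _)
      · apply Integrable.const_mul
        apply Integrable.div_const
        exact hGi.sub ((hFi e).mul_const _)
    · exact hGi.const_mul _
  have hHint : ∫ ω, H ω ∂μ = 0 := by
    rw [hH, integral_finsetSum _ ?_]
    · apply Finset.sum_eq_zero
      intro e _
      rw [integral_sub, integral_add, integral_const_mul, integral_const_mul, integral_const_mul,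
        integral_div, integral_div, integral_add hGi ((hFi e).mul_const _),
        integral_sub hGi ((hFi e).mul_const _), integral_mul_const, integral_mul_const, hF1 e, ← hS]
      · have e1 : (S + 1 * (Real.exp θ - 1)) / α = S := by
          rw [hα]; field_simp
        have e2 : (S - 1 * (1 - Real.exp (-θ))) / β = S := by
          have : β * S = S - 1 * (1 - Real.exp (-θ)) := by
            rw [hβ]; field_simp
          rw [← this]; field_simp
        rw [e1, e2]; ring
      · apply Integrable.const_mul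
        apply Integrable.div_const
        exact hGi.add ((hFi e).mul_const _)
      · apply Integrable.const_mul
        apply Integrable.div_const
        exact hGi.sub ((hFi e).mul_const _)
      · apply Integrable.add
        · apply Integrable.const_mul
          apply Integrable.div_const
          exact hGi.add ((hFi e).mul_const _)
        · apply Integrable.const_mul
          apply Integrable.div_const
          exact hGi.sub ((hFi e).mul_const _)
      · exact hGi.const_mul _
    · intro e _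
      apply Integrable.sub
      · apply Integrable.add
        · apply Integrable.const_mul
          apply Integrable.div_const
          exact hGi.add ((hFi e).mul_const _)
        · apply Integrable.const_mul
          apply Integrable.div_const
          exact hGi.sub ((hFi e).mul_const _)
      · exact hGi.const_mul _
  -- existence of a good point
  have hexists : ∃ ω, 0 < G ω ∧ H ω ≤ 0 := by
    by_contra hcon
    push Not at hcon
    have hHzero : ∀ ω, G ω = 0 → H ω = 0 := by
      intro ω hω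
      apply Finset.sum_eq_zero
      intro e _
      have : F e ω = 0 := le_antisymm (by have := hFG e ω; linarith) (hF0 e ω)
      rw [this, hω]; simp
    have hHnn : ∀ ω, 0 ≤ H ω := by
      intro ω
      rcases (hG0 ω).lt_or_eq with h | h
      · exact (hcon ω h).le
      · rw [hHzero ω h.symm]
    have hae := (integral_eq_zero_iff_of_nonneg hHnn hHi).mp hHint
    have hGae : G =ᵐ[μ] 0 := by
      filter_upwards [hae] with ω hω
      by_contra hne
      have hpos : 0 < G ω := lt_of_le_of_ne (hG0 ω) (Ne.symm hne)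
      have := hcon ω hpos
      rw [hω] at this
      simp at this
    have hFae : F e0 =ᵐ[μ] 0 := by
      filter_upwards [hGae] with ω hω
      have h1 := hFG e0 ω
      have h2 := hF0 e0 ω
      simp only [Pi.zero_apply] at hω ⊢
      linarith
    have := integral_congr_ae hFae
    rw [hF1 e0] at this
    simp at this
  obtain ⟨ω, hω, hHω⟩ := hexists
  refine ⟨ω, hω, ?_⟩
  -- divide by G ω
  have hdiv : ∑ e, (cp e * ((1 + F e ω / G ω * (Real.exp θ - 1)) / α) +
      cm e * ((1 - F e ω / G ω * (1 - Real.exp (-θ))) / β)) ≤ ∑ e, (cp e + cm e) := by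
    have hmul : H ω = G ω * (∑ e, (cp e * ((1 + F e ω / G ω * (Real.exp θ - 1)) / α) +
        cm e * ((1 - F e ω / G ω * (1 - Real.exp (-θ))) / β)) - ∑ e, (cp e + cm e)) := by
      rw [← Finset.sum_sub_distrib, Finset.mul_sum]
      apply Finset.sum_congr rfl
      intro e _
      field_simp
    rw [hmul] at hHω
    have := nonpos_of_mul_nonpos_right hHω hω
    linarith
  refine le_trans (Finset.sum_le_sum ?_) hdiv
  intro e _
  have hρ0 : 0 ≤ F e ω / G ω := div_nonneg (hF0 e ω) hω.le
  have hρ1 : F e ω / G ω ≤ 1 := by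
    rw [div_le_one hω]; exact hFG e ω
  have h1 := exp_mul_le_of_unit (θ := θ) hρ0 hρ1
  have h2 := exp_mul_le_of_unit (θ := -θ) hρ0 hρ1
  apply add_le_add
  · apply mul_le_mul_of_nonneg_left _ (hcp e)
    apply div_le_div_of_nonneg_right _ hα0.le
    linarith
  · apply mul_le_mul_of_nonneg_left _ (hcm e)
    apply div_le_div_of_nonneg_right _ hβ0.le
    linarith


/-- Iterating the selection step. -/
lemma select_seq (F : P → Ω → ℝ) (G : Ω → ℝ) (e0 : P)
    (hF0 : ∀ e ω, 0 ≤ F e ω) (hFi : ∀ e, Integrable (F e) μ) (hF1 : ∀ e, ∫ ω, F e ω ∂μ = 1)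
    (hFG : ∀ e ω, F e ω ≤ G ω) (hGi : Integrable G μ) {θ : ℝ} (hθ : 0 < θ) (m : ℕ) :
    ∃ w : Fin m → Ω, (∀ t, 0 < G (w t)) ∧
      ∑ e, (Real.exp (θ * ∑ t, F e (w t) / G (w t)) /
              (1 + (Real.exp θ - 1) / ∫ ω, G ω ∂μ) ^ m +
            Real.exp (-θ * ∑ t, F e (w t) / G (w t)) /
              (1 - (1 - Real.exp (-θ)) / ∫ ω, G ω ∂μ) ^ m) ≤ 2 * (Fintype.card P : ℝ) := by
  classical
  induction m with
  | zero =>
    refine ⟨Fin.elim0, fun t => t.elim0, ?_⟩
    simp only [Finset.univ_eq_empty, Finset.sum_empty, mul_zero, Real.exp_zero, pow_zero, div_one]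
    rw [Finset.sum_const, nsmul_eq_mul, Finset.card_univ]
    norm_num
    linarith
  | succ m ih =>
    obtain ⟨w, hw, hΦ⟩ := ih
    set S := ∫ ω, G ω ∂μ with hS
    have hS1 : 1 ≤ S := by
      rw [← hF1 e0]
      exact integral_mono (hFi e0) hGi (fun ω => hFG e0 ω)
    have hS0 : 0 < S := by linarith
    have hE1 : 0 < Real.exp θ - 1 := by
      have := Real.add_one_lt_exp hθ.ne'
      linarith
    have hE3 : 1 - Real.exp (-θ) < 1 := by
      have := Real.exp_pos (-θ)
      linarith
    set α := 1 + (Real.exp θ - 1) / S with hα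
    set β := 1 - (1 - Real.exp (-θ)) / S with hβ
    have hα0 : 0 < α := by positivity
    have hβ0 : 0 < β := by
      rw [hβ, sub_pos, div_lt_one hS0]
      linarith
    set R : P → ℝ := fun e => ∑ t, F e (w t) / G (w t) with hR
    obtain ⟨ω, hω, hstep⟩ := select_step (μ := μ) F G e0 hF0 hFi hF1 hFG hGi hθ
      (fun e => Real.exp (θ * R e) / α ^ m) (fun e => Real.exp (-θ * R e) / β ^ m)
      (fun e => by positivity) (fun e => by positivity)
    refine ⟨Fin.cons ω w, ?_, ?_⟩
    · intro t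
      refine Fin.cases ?_ ?_ t
      · simpa using hω
      · intro t'; simpa using hw t'
    · refine le_trans (le_of_eq ?_) (le_trans hstep hΦ)
      apply Finset.sum_congr rfl
      intro e _
      simp only [Fin.sum_univ_succ, Fin.cons_zero, Fin.cons_succ]
      rw [← hS, ← hα, ← hβ]
      have e1 : θ * (F e ω / G ω + R e) = θ * (F e ω / G ω) + θ * R e := by ring
      have e2 : -θ * (F e ω / G ω + R e) = -θ * (F e ω / G ω) + -θ * R e := by ring
      rw [e1, e2, Real.exp_add, Real.exp_add, pow_succ, pow_succ]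
      field_simp

/-- Concentration bounds for the selected points. -/
lemma select_bounds (F : P → Ω → ℝ) (G : Ω → ℝ) (e0 : P)
    (hF0 : ∀ e ω, 0 ≤ F e ω) (hFi : ∀ e, Integrable (F e) μ) (hF1 : ∀ e, ∫ ω, F e ω ∂μ = 1)
    (hFG : ∀ e ω, F e ω ≤ G ω) (hGi : Integrable G μ) {θ : ℝ} (hθ : 0 < θ) (m : ℕ) :
    ∃ w : Fin m → Ω, (∀ t, 0 < G (w t)) ∧ ∀ e,
      θ * ∑ t, F e (w t) / G (w t) ≤
          Real.log (2 * (Fintype.card P : ℝ)) + m * ((Real.exp θ - 1) / ∫ ω, G ω ∂μ) ∧
      m * ((1 - Real.exp (-θ)) / ∫ ω, G ω ∂μ) - Real.log (2 * (Fintype.card P : ℝ)) ≤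
          θ * ∑ t, F e (w t) / G (w t) := by
  classical
  obtain ⟨w, hw, hΦ⟩ := select_seq (μ := μ) F G e0 hF0 hFi hF1 hFG hGi hθ m
  refine ⟨w, hw, ?_⟩
  intro e
  set S := ∫ ω, G ω ∂μ with hS
  have hS1 : 1 ≤ S := by
    rw [← hF1 e0]
    exact integral_mono (hFi e0) hGi (fun ω => hFG e0 ω)
  have hS0 : 0 < S := by linarith
  have hE1 : 0 < Real.exp θ - 1 := by
    have := Real.add_one_lt_exp hθ.ne'
    linarith
  have hE3 : 1 - Real.exp (-θ) < 1 := by
    have := Real.exp_pos (-θ)
    linarith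
  set α := 1 + (Real.exp θ - 1) / S with hα
  set β := 1 - (1 - Real.exp (-θ)) / S with hβ
  have hα0 : 0 < α := by positivity
  have hβ0 : 0 < β := by
    rw [hβ, sub_pos, div_lt_one hS0]
    linarith
  set R : P → ℝ := fun e => ∑ t, F e (w t) / G (w t) with hR
  have hcard : (0:ℝ) < 2 * (Fintype.card P : ℝ) := by
    have : 0 < Fintype.card P := Fintype.card_pos_iff.mpr ⟨e0⟩
    positivity
  have hterm : Real.exp (θ * R e) / α ^ m + Real.exp (-θ * R e) / β ^ m ≤
      2 * (Fintype.card P : ℝ) := by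
    refine le_trans ?_ hΦ
    exact Finset.single_le_sum
      (f := fun e => Real.exp (θ * R e) / α ^ m + Real.exp (-θ * R e) / β ^ m)
      (fun e _ => by positivity) (Finset.mem_univ e)
  have h1 : Real.exp (θ * R e) / α ^ m ≤ 2 * (Fintype.card P : ℝ) := by
    have : 0 ≤ Real.exp (-θ * R e) / β ^ m := by positivity
    linarith
  have h2 : Real.exp (-θ * R e) / β ^ m ≤ 2 * (Fintype.card P : ℝ) := by
    have : 0 ≤ Real.exp (θ * R e) / α ^ m := by positivity
    linarith
  rw [div_le_iff₀ (by positivity)] at h1 h2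
  have h3 : θ * R e ≤ Real.log (2 * (Fintype.card P : ℝ)) + m * Real.log α := by
    have := (Real.le_log_iff_exp_le (by positivity)).mpr h1
    rwa [Real.log_mul hcard.ne' (by positivity), Real.log_pow] at this
  have h4 : -θ * R e ≤ Real.log (2 * (Fintype.card P : ℝ)) + m * Real.log β := by
    have := (Real.le_log_iff_exp_le (by positivity)).mpr h2
    rwa [Real.log_mul hcard.ne' (by positivity), Real.log_pow] at this
  have hlogα : Real.log α ≤ (Real.exp θ - 1) / S := by
    have := Real.log_le_sub_one_of_pos hα0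
    rw [hα] at this ⊢
    linarith
  have hlogβ : Real.log β ≤ -((1 - Real.exp (-θ)) / S) := by
    have := Real.log_le_sub_one_of_pos hβ0
    rw [hβ] at this ⊢
    linarith
  have hm : (0:ℝ) ≤ m := by positivity
  constructor
  · have := mul_le_mul_of_nonneg_left hlogα hm
    linarith
  · have := mul_le_mul_of_nonneg_left hlogβ hm
    have h5 : (m:ℝ) * -((1 - Real.exp (-θ)) / S) = -(m * ((1 - Real.exp (-θ)) / S)) := by ring
    rw [h5] at this
    linarith

/-- The normalised two-sided bound. -/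
theorem sampling_final (F : P → Ω → ℝ) (G : Ω → ℝ) (e0 : P)
    (hF0 : ∀ e ω, 0 ≤ F e ω) (hFi : ∀ e, Integrable (F e) μ) (hF1 : ∀ e, ∫ ω, F e ω ∂μ = 1)
    (hFG : ∀ e ω, F e ω ≤ G ω) (hGi : Integrable G μ) {η : ℝ} (hη0 : 0 < η) (hη1 : η ≤ 1)
    (m : ℕ) (hm : 0 < m)
    (hlarge : 8 / η ^ 2 * (∫ ω, G ω ∂μ) * Real.log (2 * (Fintype.card P : ℝ)) ≤ m) :
    ∃ w : Fin m → Ω, (∀ t, 0 < G (w t)) ∧ ∀ e,
      1 - η ≤ (∫ ω, G ω ∂μ) / m * ∑ t, F e (w t) / G (w t) ∧
      (∫ ω, G ω ∂μ) / m * ∑ t, F e (w t) / G (w t) ≤ 1 + η := by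
  classical
  set θ := η / 4 with hθdef
  have hθ : 0 < θ := by positivity
  have hθ1 : θ ≤ 1 / 4 := by rw [hθdef]; linarith
  obtain ⟨w, hw, hb⟩ := select_bounds (μ := μ) F G e0 hF0 hFi hF1 hFG hGi hθ m
  refine ⟨w, hw, ?_⟩
  intro e
  obtain ⟨h1, h2⟩ := hb e
  set S := ∫ ω, G ω ∂μ with hS
  have hS1 : 1 ≤ S := by
    rw [← hF1 e0]
    exact integral_mono (hFi e0) hGi (fun ω => hFG e0 ω)
  have hS0 : 0 < S := by linarith
  set R := ∑ t, F e (w t) / G (w t) with hR
  set L := Real.log (2 * (Fintype.card P : ℝ)) with hL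
  have hm0 : (0:ℝ) < m := by exact_mod_cast hm
  have hSL : S * L / m ≤ η ^ 2 / 8 := by
    rw [div_le_iff₀ hm0]
    have : 8 / η ^ 2 * S * L = (S * L) * (8 / η ^ 2) := by ring
    rw [this] at hlarge
    have h8 : 0 < η ^ 2 / 8 := by positivity
    calc S * L = (S * L) * (8 / η ^ 2) * (η ^ 2 / 8) := by field_simp
      _ ≤ m * (η ^ 2 / 8) := mul_le_mul_of_nonneg_right hlarge h8.le
      _ = _ := by ring
  -- exponential estimates
  have hexp1 : Real.exp θ - 1 ≤ θ * (1 + η / 2) := by
    have h := Real.one_sub_le_exp_neg θ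
    have h0 : 0 < 1 - θ := by linarith
    have h3 : Real.exp θ * (1 - θ) ≤ 1 := by
      calc Real.exp θ * (1 - θ) ≤ Real.exp θ * Real.exp (-θ) :=
            mul_le_mul_of_nonneg_left h (Real.exp_pos _).le
        _ = 1 := by rw [← Real.exp_add]; simp
    have h4 : Real.exp θ ≤ 1 / (1 - θ) := by
      rw [le_div_iff₀ h0]; exact h3
    have h5 : 1 / (1 - θ) ≤ 1 + θ * (1 + η / 2) := by
      rw [div_le_iff₀ h0]
      have : η = 4 * θ := by rw [hθdef]; ring
      rw [this]
      have h6 : 0 ≤ θ ^ 2 * (1 - 2 * θ) := mul_nonneg (by positivity) (by linarith)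
      nlinarith
    linarith
  have hexp2 : θ * (1 - θ) ≤ 1 - Real.exp (-θ) := by
    have h := Real.add_one_le_exp θ
    have h0 : 0 < 1 + θ := by linarith
    have h3 : Real.exp (-θ) * (1 + θ) ≤ 1 := by
      calc Real.exp (-θ) * (1 + θ) ≤ Real.exp (-θ) * Real.exp θ :=
            mul_le_mul_of_nonneg_left (by linarith) (Real.exp_pos _).le
        _ = 1 := by rw [← Real.exp_add]; simp
    have h4 : Real.exp (-θ) ≤ 1 / (1 + θ) := by
      rw [le_div_iff₀ h0]; exact h3
    have h5 : 1 / (1 + θ) ≤ 1 - θ * (1 - θ) := by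
      rw [div_le_iff₀ h0]
      nlinarith [mul_pos hθ hθ, mul_pos (mul_pos hθ hθ) hθ]
    linarith
  have hSm : 0 < S / m := by positivity
  have key : S / m * (θ * R) = θ * (S / m * R) := by ring
  constructor
  · have h3 := mul_le_mul_of_nonneg_left h2 hSm.le
    rw [key] at h3
    have h4 : S / m * (m * ((1 - Real.exp (-θ)) / S) - L) = (1 - Real.exp (-θ)) - S * L / m := by
      field_simp
    rw [h4] at h3
    have h5 : θ * (1 - η) ≤ (1 - Real.exp (-θ)) - S * L / m := by
      have h6 : θ * (η / 2) = η ^ 2 / 8 := by rw [hθdef]; ring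
      have h7 : θ * (1 - η) = θ * (1 - θ) - θ * (η / 2) - θ * (η / 4) := by
        rw [hθdef]; ring
      have h8 : 0 ≤ θ * (η / 4) := by positivity
      linarith
    exact le_of_mul_le_mul_left (le_trans h5 h3) hθ
  · have h3 := mul_le_mul_of_nonneg_left h1 hSm.le
    rw [key] at h3
    have h4 : S / m * (L + m * ((Real.exp θ - 1) / S)) = S * L / m + (Real.exp θ - 1) := by
      field_simp
    rw [h4] at h3
    have h5 : S * L / m + (Real.exp θ - 1) ≤ θ * (1 + η) := by
      have h6 : θ * (η / 2) = η ^ 2 / 8 := by rw [hθdef]; ring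
      have h7 : θ * (1 + η) = θ * (1 + η / 2) + θ * (η / 2) := by ring
      linarith
    exact le_of_mul_le_mul_left (le_trans h3 h5) hθ

end Vale.Agent.Lib.P249
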