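import Mathlib

open Finset

namespace Vale.Agent.Lib.P249

/-- The weight `1 / (R+1)^(3/2)`. -/
noncomputable def wt (R : ℕ) : ℝ := 1 / (((R : ℝ) + 1) * Real.sqrt ((R : ℝ) + 1))

lemma wt_pos (R : ℕ) : 0 < wt R := by
  unfold wt; positivity

lemma wt_antitone {R S : ℕ} (h : R ≤ S) : wt S ≤ wt R := by
  unfold wt
  have h1 : ((R:ℝ)+1) ≤ (S:ℝ)+1 := by exact_mod_cast Nat.succ_le_succ h
  apply one_div_le_one_div_of_le (by positivity)
  exact mul_le_mul h1 (Real.sqrt_le_sqrt h1) (Real.sqrt_nonneg _) (by positivity)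

lemma wt_step (N : ℕ) (hN : 1 ≤ N) :
    wt N ≤ 2 / Real.sqrt (N : ℝ) - 2 / Real.sqrt ((N : ℝ) + 1) := by
  unfold wt
  have hN' : (1:ℝ) ≤ (N:ℝ) := by exact_mod_cast hN
  set u := Real.sqrt (N : ℝ) with hu
  set v := Real.sqrt ((N : ℝ) + 1) with hv
  have hu0 : 0 < u := Real.sqrt_pos.mpr (by linarith)
  have hv0 : 0 < v := Real.sqrt_pos.mpr (by linarith)
  have huv : u ≤ v := Real.sqrt_le_sqrt (by linarith)
  have hu2 : u ^ 2 = (N : ℝ) := Real.sq_sqrt (by linarith)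
  have hv2 : v ^ 2 = (N : ℝ) + 1 := Real.sq_sqrt (by linarith)
  have hvN : ((N : ℝ) + 1) = v ^ 2 := hv2.symm
  rw [hvN]
  have hdiff : (v - u) * (v + u) = 1 := by nlinarith
  have hvu : 0 < v - u := by
    by_contra hneg
    have : v - u ≤ 0 := not_lt.mp hneg
    nlinarith
  rw [div_sub_div _ _ hu0.ne' hv0.ne', div_le_div_iff₀ (by positivity) (by positivity)]
  -- 1 * (u*v) ≤ (2*v - u*2) * (v^2 * v)
  have key : 1 * (u * v) ≤ (2 * v - u * 2) * (v ^ 2 * v) := by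
    have h1 : (2 * v - u * 2) * (v ^ 2 * v) = 2 * (v - u) * v ^ 3 := by ring
    rw [h1]
    have h2 : (v - u) = 1 / (v + u) := by
      field_simp
      linarith
    rw [h2]
    have h3 : 0 < v + u := by linarith
    rw [show 2 * (1 / (v + u)) * v ^ 3 = (2 * v ^ 3) / (v + u) by ring, le_div_iff₀ h3]
    nlinarith [mul_pos hu0 hv0, mul_nonneg (sub_nonneg.mpr huv) (mul_pos hu0 hv0).le,
      mul_nonneg (mul_nonneg (sub_nonneg.mpr huv) hv0.le) hv0.le,
      mul_nonneg (sub_nonneg.mpr huv) hu0.le, pow_pos hv0 3, pow_pos hu0 2]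
  linarith

lemma sum_wt_le (N : ℕ) : ∑ R ∈ range N, wt R ≤ 3 := by
  have main : ∀ N : ℕ, 1 ≤ N → ∑ R ∈ range N, wt R ≤ 3 - 2 / Real.sqrt (N : ℝ) := by
    intro N hN
    induction N, hN using Nat.le_induction with
    | base =>
      simp [wt]
      norm_num
    | succ N hN ih =>
      rw [sum_range_succ]
      have := wt_step N hN
      push_cast
      linarith
  rcases Nat.eq_zero_or_pos N with h | h
  · subst h; simp
  · have := main N h
    have h2 : 0 ≤ 2 / Real.sqrt (N : ℝ) := by positivity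
    linarith


lemma wt_ge {R G : ℕ} (h : R < G) :
    1 / ((G : ℝ) * Real.sqrt (G : ℝ)) ≤ wt R := by
  unfold wt
  have h1 : ((R:ℝ)+1) ≤ (G:ℝ) := by exact_mod_cast h
  apply one_div_le_one_div_of_le (by positivity)
  exact mul_le_mul h1 (Real.sqrt_le_sqrt h1) (Real.sqrt_nonneg _) (by positivity)

lemma pow_aux1 (p : ℝ) (t : ℕ) :
    (1 / (2 * (3:ℝ) ^ t)) ^ p = 1 / ((2:ℝ) ^ p * ((3:ℝ) ^ p) ^ t) := by
  rw [Real.div_rpow (by norm_num) (by positivity), Real.one_rpow,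
    Real.mul_rpow (by norm_num) (by positivity), Real.rpow_pow_comm (by norm_num)]

lemma pow_aux2 (p : ℝ) (t : ℕ) :
    (((1:ℝ) / 2) ^ (t + 3) / (3:ℝ) ^ t) ^ p = 1 / ((8:ℝ) ^ p * ((6:ℝ) ^ p) ^ t) := by
  have h : ((1:ℝ) / 2) ^ (t + 3) / (3:ℝ) ^ t = 1 / (8 * (6:ℝ) ^ t) := by
    rw [show (6:ℝ) = 2 * 3 by norm_num, mul_pow, one_div_pow, pow_add]
    field_simp
    norm_num
  rw [h, Real.div_rpow (by norm_num) (by positivity), Real.one_rpow,
    Real.mul_rpow (by norm_num) (by positivity), Real.rpow_pow_comm (by norm_num)]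

/-- Hypotheses: `d` is a metric on the finite type `ι`, and for each `x` the function `r x` is
an injective ranking of the points by their distance from `x`. -/
structure RankedMetric {ι : Type*} [Fintype ι] (d : ι → ι → ℝ) (r : ι → ι → ℕ) : Prop where
  symm : ∀ x y, d x y = d y x
  tri : ∀ x y z, d x z ≤ d x y + d y z
  pos : ∀ x y, x ≠ y → 0 < d x y
  inj : ∀ x, Function.Injective (r x)
  lt : ∀ x y, r x y < Fintype.card ι
  mono : ∀ x y z, r x z ≤ r x y → d x z ≤ d x y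
  self : ∀ x, d x x = 0

variable {ι : Type*} [Fintype ι]

/-- The energy at the point `x`. -/
noncomputable def En (d : ι → ι → ℝ) (r : ι → ι → ℕ) (p : ℝ) (a : ι → ℝ) (x : ι) : ℝ :=
  ∑ y, wt (r x y) * (|a x - a y| / d x y) ^ p

/-- The total energy. -/
noncomputable def Etot (d : ι → ι → ℝ) (r : ι → ι → ℕ) (p : ℝ) (a : ι → ℝ) : ℝ :=
  ∑ x, En d r p a x

lemma term_nonneg {d : ι → ι → ℝ} {r : ι → ι → ℕ} (h : RankedMetric d r)
    (p : ℝ) (a : ι → ℝ) (x y : ι) : 0 ≤ wt (r x y) * (|a x - a y| / d x y) ^ p := by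
  apply mul_nonneg (wt_pos _).le
  apply Real.rpow_nonneg
  by_cases hxy : x = y
  · subst hxy; simp
  · exact div_nonneg (abs_nonneg _) (h.pos x y hxy).le

lemma En_nonneg {d : ι → ι → ℝ} {r : ι → ι → ℕ} (h : RankedMetric d r)
    (p : ℝ) (a : ι → ℝ) (x : ι) : 0 ≤ En d r p a x :=
  Finset.sum_nonneg fun y _ => term_nonneg h p a x y

lemma Etot_nonneg {d : ι → ι → ℝ} {r : ι → ι → ℕ} (h : RankedMetric d r)
    (p : ℝ) (a : ι → ℝ) : 0 ≤ Etot d r p a :=
  Finset.sum_nonneg fun x _ => En_nonneg h p a x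

/-- The inductive invariant. -/
def Good (d : ι → ι → ℝ) (p : ℝ) (a : ι → ℝ) (Δ r0 : ℝ) (t : ℕ) (I : Finset ι) (c : ι) : Prop :=
  (((6:ℝ) ^ p) ^ t) ^ 2 ≤ (I.card : ℝ) ∧
  (∀ y ∈ I, |a y - a c| ≤ Δ / 4 * (1 - ((1:ℝ) / 2) ^ t)) ∧
  (∀ y ∈ I, d y c ≤ (((3:ℝ) ^ t - 1) / 2) * r0)

/-- If the `J` are far in value from `k`, and `k` has small energy, then many points rank high. -/
lemma rank_large {d : ι → ι → ℝ} {r : ι → ι → ℕ} (h : RankedMetric d r)
    {p : ℝ} (hp : 1 ≤ p) (a : ι → ℝ) {Δ r0 : ℝ} (hΔ : 0 < Δ) (hr0 : 0 < r0)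
    (hsmall : 6 * (2:ℝ) ^ p * ((6:ℝ) ^ p) ^ 3 * Etot d r p a < (Δ / r0) ^ p)
    (t : ℕ) (I J : Finset ι) (k : ι)
    (hIcard : (((6:ℝ) ^ p) ^ t) ^ 2 ≤ (I.card : ℝ))
    (hJcard : (((6:ℝ) ^ p) ^ t) ^ 2 ≤ (J.card : ℝ))
    (hk : (I.card : ℝ) * En d r p a k ≤ Etot d r p a)
    (hval : ∀ y ∈ J, Δ / 2 ≤ |a k - a y|)
    (hdist : ∀ y ∈ J, d k y ≤ (3:ℝ) ^ t * r0)
    (G : ℕ) (hG : (G : ℝ) ≤ 3 * ((6:ℝ) ^ p) ^ 2 * (((6:ℝ) ^ p) ^ t) ^ 2) (hG1 : 1 ≤ G) :
    ∃ y ∈ J, G ≤ r k y := by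
  by_contra hcon
  push Not at hcon
  set A := (6:ℝ) ^ p with hA
  set B := (2:ℝ) ^ p with hB
  set T := (3:ℝ) ^ p with hT
  set W := A ^ t with hW
  have hA1 : 1 ≤ A := Real.one_le_rpow (by norm_num) (by linarith)
  have hB1 : 1 ≤ B := Real.one_le_rpow (by norm_num) (by linarith)
  have hT1 : 1 ≤ T := Real.one_le_rpow (by norm_num) (by linarith)
  have hAeq : A = B * T := by
    rw [hA, hB, hT, ← Real.mul_rpow (by norm_num) (by norm_num)]; norm_num
  have hW1 : 1 ≤ W := one_le_pow₀ hA1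
  have hG0 : (0:ℝ) < G := by exact_mod_cast hG1
  set sG := Real.sqrt (G : ℝ) with hsG
  have hsG0 : 0 < sG := Real.sqrt_pos.mpr hG0
  have hsG2 : sG ≤ 2 * A * W := by
    rw [hsG, Real.sqrt_le_left (by positivity)]
    nlinarith [mul_pos (lt_of_lt_of_le one_pos hA1) (lt_of_lt_of_le one_pos hW1)]
  set σ := Δ / r0 with hσ
  have hσ0 : 0 < σ := div_pos hΔ hr0
  have hσp : 0 < σ ^ p := Real.rpow_pos_of_pos hσ0 p
  -- lower bound for the energy at k
  have hterm : ∀ y ∈ J, 1 / ((G : ℝ) * sG) * (σ ^ p * (1 / (B * T ^ t))) ≤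
      wt (r k y) * (|a k - a y| / d k y) ^ p := by
    intro y hy
    have hne : k ≠ y := by
      rintro rfl
      have := hval k hy
      simp at this
      linarith
    have hdpos : 0 < d k y := h.pos k y hne
    apply mul_le_mul (wt_ge (hcon y hy)) _ (by positivity) (wt_pos _).le
    rw [← pow_aux1 p t, ← Real.mul_rpow hσ0.le (by positivity)]
    apply Real.rpow_le_rpow (by positivity) _ (by linarith)
    rw [hσ, div_mul_div_comm, mul_one, div_le_div_iff₀ (by positivity) hdpos]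
    have h1 := hval y hy
    have h2 := hdist y hy
    have h3 : (0:ℝ) < 3 ^ t := by positivity
    have : Δ * d k y ≤ |a k - a y| * (r0 * (2 * 3 ^ t)) := by
      have h4 : Δ * d k y ≤ Δ * ((3:ℝ) ^ t * r0) := mul_le_mul_of_nonneg_left h2 hΔ.le
      have h5 : Δ / 2 * (2 * (3 ^ t * r0)) ≤ |a k - a y| * (2 * (3 ^ t * r0)) :=
        mul_le_mul_of_nonneg_right h1 (by positivity)
      nlinarith
    exact this
  have hEn : (J.card : ℝ) * (1 / ((G : ℝ) * sG) * (σ ^ p * (1 / (B * T ^ t)))) ≤ En d r p a k := by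
    calc (J.card : ℝ) * (1 / ((G : ℝ) * sG) * (σ ^ p * (1 / (B * T ^ t))))
        = ∑ y ∈ J, (1 / ((G : ℝ) * sG) * (σ ^ p * (1 / (B * T ^ t)))) := by
          rw [Finset.sum_const, nsmul_eq_mul]
      _ ≤ ∑ y ∈ J, wt (r k y) * (|a k - a y| / d k y) ^ p := Finset.sum_le_sum hterm
      _ ≤ ∑ y, wt (r k y) * (|a k - a y| / d k y) ^ p :=
          Finset.sum_le_sum_of_subset_of_nonneg (Finset.subset_univ _)
            (fun y _ _ => term_nonneg h p a k y)
  -- now the arithmetic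
  have hW2 : 0 < W ^ 2 := by positivity
  set X := 1 / ((G : ℝ) * sG) * (σ ^ p * (1 / (B * T ^ t))) with hX
  have hX0 : 0 < X := by positivity
  have h1 : W ^ 2 * (W ^ 2 * X) ≤ Etot d r p a := by
    calc W ^ 2 * (W ^ 2 * X) ≤ (I.card : ℝ) * ((J.card : ℝ) * X) := by
          apply mul_le_mul hIcard _ (by positivity) (by positivity)
          exact mul_le_mul_of_nonneg_right hJcard hX0.le
      _ ≤ (I.card : ℝ) * En d r p a k :=
          mul_le_mul_of_nonneg_left hEn (by positivity)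
      _ ≤ _ := hk
  -- W^4 X ≥ σ^p / (6 B A^3)
  have hGs : (G : ℝ) * sG ≤ (3 * A ^ 2 * W ^ 2) * (2 * A * W) :=
    mul_le_mul hG hsG2 hsG0.le (by positivity)
  have hWT : 1 * T ^ t ≤ W := by
    rw [hW, hAeq, mul_pow, one_mul]
    exact le_mul_of_one_le_left (by positivity) (one_le_pow₀ hB1)
  have h2 : σ ^ p ≤ 6 * B * A ^ 3 * (W ^ 2 * (W ^ 2 * X)) := by
    have hT0 : 0 < T ^ t := by positivity
    have hB0 : 0 < B := by linarith
    have hGs0 : 0 < (G : ℝ) * sG := by positivity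
    have hXeq : X = σ ^ p / ((G : ℝ) * sG * (B * T ^ t)) := by
      rw [hX]; field_simp
    rw [hXeq]
    have hA0 : 0 < A := by linarith
    have hW0 : 0 < W := by linarith
    have e : 6 * B * A ^ 3 * (W ^ 2 * (W ^ 2 * (σ ^ p / ((G : ℝ) * sG * (B * T ^ t))))) =
        σ ^ p * (6 * B * A ^ 3 * W ^ 4 / ((G : ℝ) * sG * (B * T ^ t))) := by
      field_simp
    rw [e]
    have : 1 ≤ 6 * B * A ^ 3 * W ^ 4 / ((G : ℝ) * sG * (B * T ^ t)) := by
      rw [le_div_iff₀ (by positivity), one_mul]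
      calc (G : ℝ) * sG * (B * T ^ t) ≤ ((3 * A ^ 2 * W ^ 2) * (2 * A * W)) * (B * W) := by
            apply mul_le_mul hGs _ (by positivity) (by positivity)
            apply mul_le_mul_of_nonneg_left _ hB0.le
            linarith
        _ = 6 * B * A ^ 3 * W ^ 4 := by ring
    exact le_mul_of_one_le_right hσp.le this
  have h3 : 6 * B * A ^ 3 * (W ^ 2 * (W ^ 2 * X)) ≤ 6 * B * A ^ 3 * Etot d r p a :=
    mul_le_mul_of_nonneg_left h1 (by positivity)
  linarith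


lemma card_rank_filter {d : ι → ι → ℝ} {r : ι → ι → ℕ} (h : RankedMetric d r) (k : ι) (G : ℕ)
    (hG : G ≤ Fintype.card ι) :
    (Finset.univ.filter (fun z => r k z < G)).card = G := by
  classical
  have himg : (Finset.univ : Finset ι).image (r k) = Finset.range (Fintype.card ι) := by
    apply Finset.eq_of_subset_of_card_le
    · intro R hR
      rw [Finset.mem_image] at hR
      obtain ⟨z, -, rfl⟩ := hR
      exact Finset.mem_range.mpr (h.lt k z)
    · rw [Finset.card_image_of_injective _ (h.inj k), Finset.card_range, Finset.card_univ]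
  have himg2 : (Finset.univ.filter (fun z => r k z < G)).image (r k) = Finset.range G := by
    ext R
    simp only [Finset.mem_image, Finset.mem_filter, Finset.mem_univ, true_and, Finset.mem_range]
    constructor
    · rintro ⟨z, hz, rfl⟩
      exact hz
    · intro hR
      have : R ∈ (Finset.univ : Finset ι).image (r k) := by
        rw [himg]; exact Finset.mem_range.mpr (lt_of_lt_of_le hR hG)
      rw [Finset.mem_image] at this
      obtain ⟨z, -, rfl⟩ := this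
      exact ⟨z, hR, rfl⟩
  have := Finset.card_image_of_injective (Finset.univ.filter (fun z => r k z < G)) (h.inj k)
  rw [← this, himg2, Finset.card_range]

/-- The flat part of the `G` points of lowest rank around `k` is large. -/
lemma flat_set {d : ι → ι → ℝ} {r : ι → ι → ℕ} (h : RankedMetric d r)
    {p : ℝ} (hp : 1 ≤ p) (a : ι → ℝ) {Δ r0 : ℝ} (hΔ : 0 < Δ) (hr0 : 0 < r0)
    (hsmall : 6 * (2:ℝ) ^ p * ((6:ℝ) ^ p) ^ 3 * Etot d r p a < (Δ / r0) ^ p)
    (t : ℕ) (I : Finset ι) (k y0 : ι)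
    (hIcard : (((6:ℝ) ^ p) ^ t) ^ 2 ≤ (I.card : ℝ))
    (hk : (I.card : ℝ) * En d r p a k ≤ Etot d r p a)
    (hy0 : d k y0 ≤ (3:ℝ) ^ t * r0)
    (G : ℕ) (hG : (G : ℝ) ≤ 3 * ((6:ℝ) ^ p) ^ 2 * (((6:ℝ) ^ p) ^ t) ^ 2)
    (hG' : 2 * ((6:ℝ) ^ p) ^ 2 * (((6:ℝ) ^ p) ^ t) ^ 2 ≤ (G : ℝ)) (hG1 : 1 ≤ G)
    (hGy : G ≤ r k y0) :
    ∃ I' : Finset ι, (((6:ℝ) ^ p) ^ (t + 1)) ^ 2 ≤ (I'.card : ℝ) ∧
      (∀ z ∈ I', |a z - a k| ≤ ((1:ℝ) / 2) ^ (t + 3) * Δ) ∧
      (∀ z ∈ I', d k z ≤ (3:ℝ) ^ t * r0) := by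
  set A := (6:ℝ) ^ p with hA
  set B := (2:ℝ) ^ p with hB
  set W := A ^ t with hW
  have hA1 : 1 ≤ A := Real.one_le_rpow (by norm_num) (by linarith)
  have hB1 : 1 ≤ B := Real.one_le_rpow (by norm_num) (by linarith)
  have hW1 : 1 ≤ W := one_le_pow₀ hA1
  have hA0 : 0 < A := by linarith
  have hB0 : 0 < B := by linarith
  have hW0 : 0 < W := by linarith
  have h8 : (8:ℝ) ^ p ≤ B * A ^ 2 := by
    have e : B * A ^ 2 = ((2:ℝ) * 6 ^ 2) ^ p := by
      rw [Real.mul_rpow (by norm_num) (by norm_num), hB, hA,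
        Real.rpow_pow_comm (by norm_num)]
    rw [e]
    exact Real.rpow_le_rpow (by norm_num) (by norm_num) (by linarith)
  have h80 : 0 < (8:ℝ) ^ p := by positivity
  have hG0 : (0:ℝ) < G := by exact_mod_cast hG1
  set sG := Real.sqrt (G : ℝ) with hsG
  have hsG0 : 0 < sG := Real.sqrt_pos.mpr hG0
  have hsG2 : sG ≤ 2 * A * W := by
    rw [hsG, Real.sqrt_le_left (by positivity)]
    nlinarith [mul_pos hA0 hW0]
  set σ := Δ / r0 with hσ
  have hσ0 : 0 < σ := div_pos hΔ hr0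
  have hσp : 0 < σ ^ p := Real.rpow_pos_of_pos hσ0 p
  set τ := ((1:ℝ) / 2) ^ (t + 3) with hτ
  have hτ0 : 0 < τ := by positivity
  set B' := Finset.univ.filter (fun z => r k z < G) with hB'
  have hB'card : B'.card = G := card_rank_filter h k G
    (le_trans hGy (le_of_lt (h.lt k y0)))
  have hB'dist : ∀ z ∈ B', d k z ≤ (3:ℝ) ^ t * r0 := by
    intro z hz
    have hz' : r k z < G := by simpa [hB'] using hz
    exact le_trans (h.mono k y0 z (by omega)) hy0
  set N := B'.filter (fun z => τ * Δ < |a z - a k|) with hN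
  set I' := B'.filter (fun z => ¬ (τ * Δ < |a z - a k|)) with hI'
  have hsum : N.card + I'.card = B'.card := Finset.card_filter_add_card_filter_not (s := B') _
  -- bound on N
  have hNbound : (N.card : ℝ) ≤ (G : ℝ) / 2 := by
    by_contra hcon
    push Not at hcon
    set X := 1 / ((G : ℝ) * sG) * (σ ^ p * (1 / ((8:ℝ) ^ p * W))) with hX
    have hX0 : 0 < X := by positivity
    have hterm : ∀ z ∈ N, X ≤ wt (r k z) * (|a k - a z| / d k z) ^ p := by
      intro z hz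
      have hz1 : z ∈ B' := (Finset.mem_filter.mp hz).1
      have hz2 : τ * Δ < |a z - a k| := (Finset.mem_filter.mp hz).2
      have hz3 : r k z < G := by simpa [hB'] using hz1
      have hne : k ≠ z := by
        rintro rfl
        simp at hz2
        nlinarith [mul_pos hτ0 hΔ]
      have hdpos : 0 < d k z := h.pos k z hne
      apply mul_le_mul (wt_ge hz3) _ (by positivity) (wt_pos _).le
      have e := pow_aux2 p t
      rw [hW, hA, ← e, ← Real.mul_rpow hσ0.le (by positivity)]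
      apply Real.rpow_le_rpow (by positivity) _ (by linarith)
      rw [abs_sub_comm] at hz2
      have h2 := hB'dist z hz1
      have h3 : (0:ℝ) < 3 ^ t := by positivity
      rw [hσ, div_mul_div_comm, div_le_div_iff₀ (by positivity) hdpos]
      have h4 : Δ * τ * d k z ≤ Δ * τ * ((3:ℝ) ^ t * r0) :=
        mul_le_mul_of_nonneg_left h2 (by positivity)
      have h5 : τ * Δ * ((3:ℝ) ^ t * r0) ≤ |a k - a z| * ((3:ℝ) ^ t * r0) :=
        mul_le_mul_of_nonneg_right hz2.le (by positivity)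
      nlinarith
    have hEn : (N.card : ℝ) * X ≤ En d r p a k := by
      calc (N.card : ℝ) * X = ∑ z ∈ N, X := by rw [Finset.sum_const, nsmul_eq_mul]
        _ ≤ ∑ z ∈ N, wt (r k z) * (|a k - a z| / d k z) ^ p := Finset.sum_le_sum hterm
        _ ≤ _ := Finset.sum_le_sum_of_subset_of_nonneg (Finset.subset_univ _)
            (fun y _ _ => term_nonneg h p a k y)
    have h1 : W ^ 2 * (((G : ℝ) / 2) * X) ≤ Etot d r p a := by
      calc W ^ 2 * (((G : ℝ) / 2) * X) ≤ (I.card : ℝ) * ((N.card : ℝ) * X) := by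
            apply mul_le_mul hIcard _ (by positivity) (by positivity)
            exact mul_le_mul_of_nonneg_right hcon.le hX0.le
        _ ≤ (I.card : ℝ) * En d r p a k := mul_le_mul_of_nonneg_left hEn (by positivity)
        _ ≤ _ := hk
    have h2 : σ ^ p ≤ 6 * B * A ^ 3 * (W ^ 2 * (((G : ℝ) / 2) * X)) := by
      have e : 6 * B * A ^ 3 * (W ^ 2 * (((G : ℝ) / 2) * X)) =
          σ ^ p * (3 * B * A ^ 3 * W / (sG * (8:ℝ) ^ p)) := by
        rw [hX]; field_simp; ring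
      rw [e]
      have : 1 ≤ 3 * B * A ^ 3 * W / (sG * (8:ℝ) ^ p) := by
        rw [le_div_iff₀ (by positivity), one_mul]
        calc sG * (8:ℝ) ^ p ≤ (2 * A * W) * (B * A ^ 2) :=
              mul_le_mul hsG2 h8 h80.le (by positivity)
          _ = 2 * B * A ^ 3 * W := by ring
          _ ≤ 3 * B * A ^ 3 * W := by
              have : 0 < B * A ^ 3 * W := by positivity
              linarith
      exact le_mul_of_one_le_right hσp.le this
    have h3 : 6 * B * A ^ 3 * (W ^ 2 * (((G : ℝ) / 2) * X)) ≤ 6 * B * A ^ 3 * Etot d r p a :=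
      mul_le_mul_of_nonneg_left h1 (by positivity)
    linarith
  refine ⟨I', ?_, ?_, ?_⟩
  · have e : (A ^ (t + 1)) ^ 2 = A ^ 2 * W ^ 2 := by rw [hW]; ring
    rw [e]
    have h1 : (N.card : ℝ) + (I'.card : ℝ) = (G : ℝ) := by
      rw [← hB'card, ← hsum]; push_cast; ring
    have h2 : (G : ℝ) / 2 ≤ (I'.card : ℝ) := by linarith
    linarith
  · intro z hz
    have := (Finset.mem_filter.mp hz).2
    linarith [not_lt.mp this]
  · intro z hz
    exact hB'dist z (Finset.mem_filter.mp hz).1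

/-- One step of the induction: enlarge the flat set around one endpoint. -/
lemma good_step {d : ι → ι → ℝ} {r : ι → ι → ℕ} (h : RankedMetric d r)
    {p : ℝ} (hp : 1 ≤ p) (a : ι → ℝ) {Δ r0 : ℝ} (hΔ : 0 < Δ) (hr0 : 0 < r0)
    (hsmall : 6 * (2:ℝ) ^ p * ((6:ℝ) ^ p) ^ 3 * Etot d r p a < (Δ / r0) ^ p)
    (i j : ι) (hij : |a i - a j| = Δ) (hd : d i j = r0)
    (t : ℕ) (I J : Finset ι) (hI : Good d p a Δ r0 t I i) (hJ : Good d p a Δ r0 t J j) :
    ∃ I', Good d p a Δ r0 (t + 1) I' i := by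
  obtain ⟨hIc, hIa, hId⟩ := hI
  obtain ⟨hJc, hJa, hJd⟩ := hJ
  set A := (6:ℝ) ^ p with hA
  set W := A ^ t with hW
  have hA1 : 1 ≤ A := Real.one_le_rpow (by norm_num) (by linarith)
  have hW1 : 1 ≤ W := one_le_pow₀ hA1
  have hA0 : 0 < A := by linarith
  have hW0 : 0 < W := by linarith
  have hIpos : (0:ℝ) < I.card := by
    have : 0 < W ^ 2 := by positivity
    linarith
  have hInonempty : I.Nonempty := by
    rw [← Finset.card_pos]; exact_mod_cast hIpos
  -- choose k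
  obtain ⟨k, hkI, hkE⟩ : ∃ k ∈ I, (I.card : ℝ) * En d r p a k ≤ Etot d r p a := by
    have hle : ∑ k ∈ I, En d r p a k ≤ ∑ k ∈ I, (Etot d r p a / (I.card : ℝ)) := by
      rw [Finset.sum_const, nsmul_eq_mul, mul_div_cancel₀ _ hIpos.ne']
      exact Finset.sum_le_sum_of_subset_of_nonneg (Finset.subset_univ _)
        (fun x _ _ => En_nonneg h p a x)
    obtain ⟨k, hk, hk2⟩ := Finset.exists_le_of_sum_le hInonempty hle
    refine ⟨k, hk, ?_⟩
    rw [le_div_iff₀ hIpos] at hk2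
    linarith
  have h12 : ((1:ℝ) / 2) ^ t ≤ 1 := pow_le_one₀ (by norm_num) (by norm_num)
  have h120 : 0 < ((1:ℝ) / 2) ^ t := by positivity
  have h3t : (1:ℝ) ≤ 3 ^ t := one_le_pow₀ (by norm_num)
  have hval : ∀ y ∈ J, Δ / 2 ≤ |a k - a y| := by
    intro y hy
    have h1 := hIa k hkI
    have h2 := hJa y hy
    have h3 : |a i - a j| ≤ |a k - a i| + |a k - a y| + |a y - a j| := by
      rw [abs_sub_comm (a k) (a i)]
      calc |a i - a j| = |(a i - a k) + (a k - a y) + (a y - a j)| := by ring_nf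
        _ ≤ _ := abs_add_three _ _ _
    rw [hij] at h3
    have h4 : Δ / 4 * (1 - ((1:ℝ) / 2) ^ t) ≤ Δ / 4 := by nlinarith
    linarith
  have hdist : ∀ y ∈ J, d k y ≤ (3:ℝ) ^ t * r0 := by
    intro y hy
    have h1 := hId k hkI
    have h2 := hJd y hy
    have h3 : d k y ≤ d k i + d i j + d j y := by
      have := h.tri k i y
      have := h.tri i j y
      linarith
    rw [hd, h.symm j y] at h3
    nlinarith
  -- choose G
  set G := ⌈2 * A ^ 2 * W ^ 2⌉₊ with hGdef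
  have hG' : 2 * A ^ 2 * W ^ 2 ≤ (G : ℝ) := Nat.le_ceil _
  have hAW : 1 ≤ A ^ 2 * W ^ 2 := by
    have : 1 ≤ A ^ 2 := one_le_pow₀ hA1
    have : 1 ≤ W ^ 2 := one_le_pow₀ hW1
    nlinarith
  have hG : (G : ℝ) ≤ 3 * A ^ 2 * W ^ 2 := by
    have := Nat.ceil_lt_add_one (a := 2 * A ^ 2 * W ^ 2) (by positivity)
    rw [← hGdef] at this
    nlinarith
  have hG1 : 1 ≤ G := by
    have : (1:ℝ) ≤ (G : ℝ) := by nlinarith
    exact_mod_cast this
  obtain ⟨y0, hy0J, hy0⟩ := rank_large h hp a hΔ hr0 hsmall t I J k hIc hJc hkE hval hdist G hG hG1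
  obtain ⟨I', hI'c, hI'a, hI'd⟩ := flat_set h hp a hΔ hr0 hsmall t I k y0 hIc hkE
    (hdist y0 hy0J) G hG hG' hG1 hy0
  refine ⟨I', hI'c, ?_, ?_⟩
  · intro z hz
    have h1 := hI'a z hz
    have h2 := hIa k hkI
    have h3 : |a z - a i| ≤ |a z - a k| + |a k - a i| := abs_sub_le _ _ _
    have e : Δ / 4 * (1 - ((1:ℝ) / 2) ^ (t + 1)) =
        ((1:ℝ) / 2) ^ (t + 3) * Δ + Δ / 4 * (1 - ((1:ℝ) / 2) ^ t) := by
      rw [pow_add, pow_add]; ring
    rw [e]
    linarith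
  · intro z hz
    have h1 := hI'd z hz
    have h2 := hId k hkI
    have h3 : d z i ≤ d z k + d k i := h.tri z k i
    rw [h.symm z k] at h3
    have e : (((3:ℝ) ^ (t + 1) - 1) / 2) * r0 = (3:ℝ) ^ t * r0 + (((3:ℝ) ^ t - 1) / 2) * r0 := by
      rw [pow_succ]; ring
    rw [e]
    linarith

/-- **The Sobolev-type inequality on a finite metric space.** -/
theorem sobolev {d : ι → ι → ℝ} {r : ι → ι → ℕ} (h : RankedMetric d r)
    {p : ℝ} (hp : 1 ≤ p) (a : ι → ℝ) (i j : ι) :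
    (|a i - a j| / d i j) ^ p ≤ 6 * (2:ℝ) ^ p * ((6:ℝ) ^ p) ^ 3 * Etot d r p a := by
  have hE := Etot_nonneg h p a
  have hK : 0 ≤ 6 * (2:ℝ) ^ p * ((6:ℝ) ^ p) ^ 3 := by positivity
  by_cases hij : i = j
  · subst hij
    simp only [sub_self, abs_zero, zero_div]
    rw [Real.zero_rpow (by linarith)]
    positivity
  by_contra hcon
  push Not at hcon
  set Δ := |a i - a j| with hΔdef
  set r0 := d i j with hr0def
  have hr0 : 0 < r0 := h.pos i j hij
  have hΔ : 0 < Δ := by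
    rcases (abs_nonneg (a i - a j)).lt_or_eq with h1 | h1
    · exact h1
    · exfalso
      rw [hΔdef, ← h1] at hcon
      simp only [zero_div] at hcon
      rw [Real.zero_rpow (by linarith)] at hcon
      have := mul_nonneg hK hE
      linarith
  have main : ∀ t : ℕ, ∃ I J, Good d p a Δ r0 t I i ∧ Good d p a Δ r0 t J j := by
    intro t
    induction t with
    | zero =>
      refine ⟨{i}, {j}, ⟨by simp, ?_, ?_⟩, ⟨by simp, ?_, ?_⟩⟩
      · intro y hy
        rw [Finset.mem_singleton.mp hy]; simp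
      · intro y hy
        rw [Finset.mem_singleton.mp hy, h.self]; simp
      · intro y hy
        rw [Finset.mem_singleton.mp hy]; simp
      · intro y hy
        rw [Finset.mem_singleton.mp hy, h.self]; simp
    | succ t ih =>
      obtain ⟨I, J, hI, hJ⟩ := ih
      obtain ⟨I', hI'⟩ := good_step h hp a hΔ hr0 hcon i j rfl rfl t I J hI hJ
      obtain ⟨J', hJ'⟩ := good_step h hp a hΔ hr0 hcon j i
        (by rw [abs_sub_comm]) (by rw [← h.symm i j]) t J I hJ hI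
      exact ⟨I', J', hI', hJ'⟩
  -- contradiction with finiteness
  have hA : (1:ℝ) < (6:ℝ) ^ p := Real.one_lt_rpow (by norm_num) (by linarith)
  obtain ⟨t, ht⟩ := pow_unbounded_of_one_lt (Fintype.card ι : ℝ) hA
  obtain ⟨I, J, hI, -⟩ := main t
  have h1 : (((6:ℝ) ^ p) ^ t) ^ 2 ≤ (I.card : ℝ) := hI.1
  have h2 : (I.card : ℝ) ≤ (Fintype.card ι : ℝ) := by exact_mod_cast Finset.card_le_univ I
  have h3 : (1:ℝ) ≤ ((6:ℝ) ^ p) ^ t := one_le_pow₀ hA.le
  nlinarith

end Vale.Agent.Lib.P249
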