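import Mathlib
import Vale.Agent.Lib.P249.Sobolev
import Vale.Agent.Lib.P249.Sampling

open MeasureTheory
open scoped ENNReal

namespace Vale.Agent.Lib.P249

lemma exists_rank {ι : Type*} [Fintype ι] (d : ι → ι → ℝ)
    (symm : ∀ x y, d x y = d y x) (tri : ∀ x y z, d x z ≤ d x y + d y z)
    (pos : ∀ x y, x ≠ y → 0 < d x y) (self : ∀ x, d x x = 0) :
    ∃ r, RankedMetric d r := by
  classical
  let e := Fintype.equivFin ι
  let σ : ι → Equiv.Perm (Fin (Fintype.card ι)) := fun x => Tuple.sort (fun k => d x (e.symm k))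
  refine ⟨fun x y => ((σ x).symm (e y) : ℕ), ⟨symm, tri, pos, ?_, ?_, ?_, self⟩⟩
  · intro x y z h
    have := Fin.val_injective h
    simpa using this
  · intro x y; exact Fin.is_lt _
  · intro x y z h
    have hmono := Tuple.monotone_sort (fun k => d x (e.symm k))
    have h2 : (σ x).symm (e z) ≤ (σ x).symm (e y) := h
    have := hmono h2
    simpa [σ, Function.comp] using this

lemma sum_rank_wt {ι : Type*} [Fintype ι] {d : ι → ι → ℝ} {r : ι → ι → ℕ} (h : RankedMetric d r)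
    (x : ι) : ∑ y, wt (r x y) ≤ 3 := by
  classical
  have h1 : ∑ y, wt (r x y) = ∑ R ∈ Finset.univ.image (r x), wt R := by
    rw [Finset.sum_image (fun a _ b _ hab => h.inj x hab)]
  rw [h1]
  refine le_trans ?_ (sum_wt_le (Fintype.card ι))
  apply Finset.sum_le_sum_of_subset_of_nonneg
  · intro R hR
    obtain ⟨z, -, rfl⟩ := Finset.mem_image.mp hR
    exact Finset.mem_range.mpr (h.lt x z)
  · intro R _ _
    exact (wt_pos R).le

variable {Ω : Type*} [MeasurableSpace Ω] {μ : Measure Ω} {p : ℝ≥0∞}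

lemma integrable_diff (hp0 : p ≠ 0) (hpt : p ≠ ∞) (x y : Lp ℝ p μ) :
    Integrable (fun ω => |(x : Ω → ℝ) ω - (y : Ω → ℝ) ω| ^ p.toReal) μ := by
  have := ((Lp.memLp x).sub (Lp.memLp y)).integrable_norm_rpow hp0 hpt
  simpa [Real.norm_eq_abs] using this

lemma norm_rpow_eq [Fact (1 ≤ p)] (hp0 : p ≠ 0) (hpt : p ≠ ∞) (x y : Lp ℝ p μ) :
    ‖x - y‖ ^ p.toReal = ∫ ω, |(x : Ω → ℝ) ω - (y : Ω → ℝ) ω| ^ p.toReal ∂μ := by
  have hm := (Lp.memLp x).sub (Lp.memLp y)
  have h1 : eLpNorm (⇑(x - y)) p μ = eLpNorm (⇑x - ⇑y) p μ := eLpNorm_congr_ae (Lp.coeFn_sub x y)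
  have hpr : 0 < p.toReal := ENNReal.toReal_pos hp0 hpt
  have hnn : 0 ≤ ∫ ω, ‖(⇑x - ⇑y) ω‖ ^ p.toReal ∂μ :=
    integral_nonneg (fun ω => by positivity)
  rw [Lp.norm_def, h1, hm.eLpNorm_eq_integral_rpow_norm hp0 hpt,
    ENNReal.toReal_ofReal (by positivity), ← Real.rpow_mul hnn,
    inv_mul_cancel₀ hpr.ne', Real.rpow_one]
  simp [Real.norm_eq_abs]


/-- The constant of the Sobolev inequality. -/
noncomputable def sobConst (q : ℝ) : ℝ := 6 * (2:ℝ) ^ q * ((6:ℝ) ^ q) ^ 3

lemma sobConst_pos (q : ℝ) : 0 < sobConst q := by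
  unfold sobConst; positivity

theorem embedding_core [Fact (1 ≤ p)] (hpt : p ≠ ∞) {η : ℝ} (hη0 : 0 < η) (hη1 : η < 1)
    (n : ℕ) (hn : 2 ≤ n) (X : Finset (Lp ℝ p μ)) (hX : X.card = n) :
    ∃ (m : ℕ) (f : X → PiLp p (fun _ : Fin m => ℝ)),
      (m : ℝ) ≤ (72 / η ^ 2 * sobConst p.toReal + 1) * n * Real.log n ∧
      ∀ x y : X,
        (1 - η) * ‖(x : Lp ℝ p μ) - y‖ ^ p.toReal ≤ ‖f x - f y‖ ^ p.toReal ∧
        ‖f x - f y‖ ^ p.toReal ≤ (1 + η) * ‖(x : Lp ℝ p μ) - y‖ ^ p.toReal := by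
  classical
  have hp1' : (1 : ℝ≥0∞) ≤ p := Fact.out
  have hp0 : p ≠ 0 := by
    intro h; rw [h] at hp1'; simp at hp1'
  set q := p.toReal with hq
  have hq1 : 1 ≤ q := by
    have := ENNReal.toReal_mono hpt hp1'
    simpa using this
  have hq0 : 0 < q := by linarith
  have hcard : Fintype.card X = n := by simp [hX]
  have : Nontrivial X := Fintype.one_lt_card_iff_nontrivial.mp (by omega)
  obtain ⟨x0, y0, hne0⟩ := exists_pair_ne X
  let u : X → Ω → ℝ := fun x => ((x : Lp ℝ p μ) : Ω → ℝ)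
  let d : X → X → ℝ := fun x y => ‖(x : Lp ℝ p μ) - y‖
  have hdsymm : ∀ x y, d x y = d y x := fun x y => norm_sub_rev _ _
  have hdtri : ∀ x y z, d x z ≤ d x y + d y z := fun x y z =>
    norm_sub_le_norm_sub_add_norm_sub _ _ _
  have hdpos : ∀ x y, x ≠ y → 0 < d x y := fun x y hxy =>
    norm_pos_iff.mpr (sub_ne_zero.mpr (fun h => hxy (Subtype.ext h)))
  have hdself : ∀ x, d x x = 0 := fun x => by simp [d]
  obtain ⟨r, hr⟩ := exists_rank d hdsymm hdtri hdpos hdself
  let φ : X → X → Ω → ℝ := fun x y ω => (|u x ω - u y ω| / d x y) ^ q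
  have hφeq : ∀ x y ω, φ x y ω = |u x ω - u y ω| ^ q / d x y ^ q := by
    intro x y ω
    exact Real.div_rpow (abs_nonneg _) (norm_nonneg _) q
  have hφnn : ∀ x y ω, 0 ≤ φ x y ω := by
    intro x y ω
    rw [hφeq]
    have : 0 ≤ d x y := norm_nonneg _
    positivity
  have hφi : ∀ x y, Integrable (φ x y) μ := by
    intro x y
    have : φ x y = fun ω => |u x ω - u y ω| ^ q / d x y ^ q := funext (hφeq x y)
    rw [this]
    exact (integrable_diff hp0 hpt _ _).div_const _
  have hφ1 : ∀ x y, x ≠ y → ∫ ω, φ x y ω ∂μ = 1 := by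
    intro x y hxy
    have : φ x y = fun ω => |u x ω - u y ω| ^ q / d x y ^ q := funext (hφeq x y)
    rw [this, integral_div, ← norm_rpow_eq hp0 hpt]
    have hd := Real.rpow_pos_of_pos (hdpos x y hxy) q
    exact div_self hd.ne'
  have hφ0 : ∀ x, ∫ ω, φ x x ω ∂μ = 0 := by
    intro x
    have : φ x x = fun _ => 0 := by
      funext ω
      simp [φ, Real.zero_rpow hq0.ne']
    rw [this]; simp
  set K := sobConst q with hKdef
  have hK0 : 0 < K := sobConst_pos q
  let G : Ω → ℝ := fun ω => K * ∑ x, ∑ y, wt (r x y) * φ x y ω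
  have hGi : Integrable G μ := by
    apply Integrable.const_mul
    apply integrable_finsetSum
    intro x _
    apply integrable_finsetSum
    intro y _
    exact (hφi x y).const_mul _
  have hGint : ∫ ω, G ω ∂μ ≤ 3 * K * n := by
    have e1 : ∫ ω, G ω ∂μ = K * ∑ x, ∑ y, wt (r x y) * ∫ ω, φ x y ω ∂μ := by
      simp only [G]
      rw [integral_const_mul, integral_finsetSum]
      · congr 1
        apply Finset.sum_congr rfl
        intro x _
        rw [integral_finsetSum]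
        · apply Finset.sum_congr rfl
          intro y _
          rw [integral_const_mul]
        · intro y _
          exact (hφi x y).const_mul _
      · intro x _
        apply integrable_finsetSum
        intro y _
        exact (hφi x y).const_mul _
    rw [e1]
    have h2 : ∀ x, ∑ y, wt (r x y) * ∫ ω, φ x y ω ∂μ ≤ 3 := by
      intro x
      refine le_trans (Finset.sum_le_sum ?_) (sum_rank_wt hr x)
      intro y _
      by_cases hxy : x = y
      · subst hxy
        rw [hφ0]; simp [(wt_pos _).le]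
      · rw [hφ1 x y hxy]; simp
    have h3 : ∑ x, ∑ y, wt (r x y) * ∫ ω, φ x y ω ∂μ ≤ 3 * (n : ℝ) := by
      calc _ ≤ ∑ x : X, (3 : ℝ) := Finset.sum_le_sum (fun x _ => h2 x)
        _ = 3 * (n : ℝ) := by
          rw [Finset.sum_const, Finset.card_univ, hcard, nsmul_eq_mul]; ring
    nlinarith
  let P := {e : X × X // e.1 ≠ e.2}
  let F : P → Ω → ℝ := fun e => φ e.1.1 e.1.2
  let e0 : P := ⟨(x0, y0), hne0⟩
  have hFG : ∀ e ω, F e ω ≤ G ω := by
    intro e ω
    have := sobolev hr hq1 (fun i => u i ω) e.1.1 e.1.2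
    exact this
  have hPcard1 : 1 ≤ Fintype.card P := Fintype.card_pos_iff.mpr ⟨e0⟩
  have hPcard : (Fintype.card P : ℝ) ≤ (n : ℝ) ^ 2 := by
    have h1 : Fintype.card P ≤ Fintype.card (X × X) := Fintype.card_subtype_le _
    rw [Fintype.card_prod, hcard] at h1
    have : (Fintype.card P : ℝ) ≤ ((n * n : ℕ) : ℝ) := by exact_mod_cast h1
    push_cast at this
    nlinarith
  have hn2 : (2:ℝ) ≤ n := by exact_mod_cast hn
  have hlogn : 0 < Real.log n := Real.log_pos (by linarith)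
  have hlogbound : Real.log (2 * (n:ℝ) ^ 2) ≤ 3 * Real.log n := by
    have : 2 * (n:ℝ) ^ 2 ≤ (n:ℝ) ^ 3 := by nlinarith [sq_nonneg (n:ℝ)]
    calc Real.log (2 * (n:ℝ) ^ 2) ≤ Real.log ((n:ℝ) ^ 3) :=
          Real.log_le_log (by positivity) this
      _ = 3 * Real.log n := by rw [Real.log_pow]; norm_num
  have hlogP : Real.log (2 * (Fintype.card P : ℝ)) ≤ Real.log (2 * (n:ℝ) ^ 2) := by
    apply Real.log_le_log
    · have : (1:ℝ) ≤ Fintype.card P := by exact_mod_cast hPcard1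
      positivity
    · linarith
  have hlogP0 : 0 ≤ Real.log (2 * (Fintype.card P : ℝ)) := by
    apply Real.log_nonneg
    have : (1:ℝ) ≤ Fintype.card P := by exact_mod_cast hPcard1
    linarith
  have hlogn2 : 0 < Real.log (2 * (n:ℝ) ^ 2) := Real.log_pos (by nlinarith)
  set Mval := 8 / η ^ 2 * (3 * K * n) * Real.log (2 * (n:ℝ) ^ 2) with hMval
  have hMval0 : 0 < Mval := by positivity
  set m := ⌈Mval⌉₊ with hm
  have hm0 : 0 < m := Nat.ceil_pos.mpr hMval0
  have hmM : Mval ≤ m := Nat.le_ceil _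
  have hlarge : 8 / η ^ 2 * (∫ ω, G ω ∂μ) * Real.log (2 * (Fintype.card P : ℝ)) ≤ m := by
    refine le_trans ?_ hmM
    rw [hMval]
    apply mul_le_mul _ hlogP hlogP0 (by positivity)
    exact mul_le_mul_of_nonneg_left hGint (by positivity)
  have hmupper : (m : ℝ) ≤ (72 / η ^ 2 * K + 1) * n * Real.log n := by
    have h1 : (m : ℝ) < Mval + 1 := Nat.ceil_lt_add_one hMval0.le
    have h2 : Mval ≤ 72 / η ^ 2 * K * n * Real.log n := by
      rw [hMval]
      have : 72 / η ^ 2 * K * n * Real.log n = 8 / η ^ 2 * (3 * K * n) * (3 * Real.log n) := by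
        ring
      rw [this]
      exact mul_le_mul_of_nonneg_left hlogbound (by positivity)
    have h3 : 1 ≤ (n : ℝ) * Real.log n := by
      have h4 : Real.log 2 ≤ Real.log n := Real.log_le_log (by norm_num) hn2
      have h5 := Real.log_two_gt_d9
      nlinarith
    nlinarith
  obtain ⟨w, hw, hbounds⟩ := sampling_final (μ := μ) F G e0 (fun e ω => hφnn _ _ ω)
    (fun e => hφi _ _) (fun e => hφ1 _ _ e.2) hFG hGi hη0 hη1.le m hm0 hlarge
  set S := ∫ ω, G ω ∂μ with hS
  have hS1 : 1 ≤ S := by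
    have := hφ1 x0 y0 hne0
    rw [← this]
    exact integral_mono (hφi x0 y0) hGi (fun ω => hFG e0 ω)
  have hS0 : 0 < S := by linarith
  have hm0' : (0:ℝ) < m := by exact_mod_cast hm0
  let β : Fin m → ℝ := fun t => S / m / G (w t)
  have hβ0 : ∀ t, 0 < β t := fun t => div_pos (div_pos hS0 hm0') (hw t)
  let f : X → PiLp p (fun _ : Fin m => ℝ) := fun x =>
    WithLp.toLp p (fun t => (β t) ^ (1 / q) * u x (w t))
  have hfnorm : ∀ x y, ‖f x - f y‖ ^ q = ∑ t, β t * |u x (w t) - u y (w t)| ^ q := by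
    intro x y
    rw [PiLp.norm_eq_sum (by exact hq0), ← Real.rpow_mul (by positivity)]
    rw [one_div, inv_mul_cancel₀ hq0.ne', Real.rpow_one]
    apply Finset.sum_congr rfl
    intro t _
    have e1 : (f x - f y).ofLp t = (β t) ^ (1 / q) * (u x (w t) - u y (w t)) := by
      rw [PiLp.sub_apply]
      simp only [f]
      ring
    rw [e1, Real.norm_eq_abs, abs_mul, abs_of_pos (by have := hβ0 t; positivity),
      Real.mul_rpow (by have := hβ0 t; positivity) (abs_nonneg _), ← Real.rpow_mul (hβ0 t).le,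
      one_div, inv_mul_cancel₀ hq0.ne', Real.rpow_one]
  refine ⟨m, f, hmupper, ?_⟩
  intro x y
  by_cases hxy : x = y
  · subst hxy
    simp only [sub_self, norm_zero]
    rw [Real.zero_rpow hq0.ne']
    simp
  · obtain ⟨h1, h2⟩ := hbounds ⟨(x, y), hxy⟩
    have hd := hdpos x y hxy
    have hdq : 0 < d x y ^ q := Real.rpow_pos_of_pos hd q
    have key : ‖f x - f y‖ ^ q =
        d x y ^ q * (S / m * ∑ t, φ x y (w t) / G (w t)) := by
      rw [hfnorm, Finset.mul_sum, Finset.mul_sum]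
      apply Finset.sum_congr rfl
      intro t _
      rw [hφeq]
      simp only [β]
      field_simp
    have h1' : 1 - η ≤ S / m * ∑ t, φ x y (w t) / G (w t) := h1
    have h2' : S / m * ∑ t, φ x y (w t) / G (w t) ≤ 1 + η := h2
    constructor
    · rw [key]
      calc (1 - η) * ‖(x : Lp ℝ p μ) - y‖ ^ q = d x y ^ q * (1 - η) := by
            simp only [d]; ring
        _ ≤ _ := mul_le_mul_of_nonneg_left h1' hdq.le
    · rw [key]
      calc d x y ^ q * (S / m * ∑ t, φ x y (w t) / G (w t)) ≤ d x y ^ q * (1 + η) :=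
            mul_le_mul_of_nonneg_left h2' hdq.le
        _ = (1 + η) * ‖(x : Lp ℝ p μ) - y‖ ^ q := by
            simp only [d]; ring


theorem main_embedding [Fact (1 ≤ p)] (hpt : p ≠ ∞) {D : ℝ} (hD : 1 < D)
    (n : ℕ) (hn : 2 ≤ n) (X : Finset (Lp ℝ p μ)) (hX : X.card = n) :
    ∃ (m : ℕ) (f : X → PiLp p (fun _ : Fin m => ℝ)) (s : ℝ),
      (m : ℝ) ≤ (72 / ((D - 1) / (D + 1)) ^ 2 * sobConst p.toReal + 1) * n * Real.log n ∧
      0 < s ∧ ∀ x y : X,
        s * ‖(x : Lp ℝ p μ) - y‖ ≤ ‖f x - f y‖ ∧ ‖f x - f y‖ ≤ D * s * ‖(x : Lp ℝ p μ) - y‖ := by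
  have hp1' : (1 : ℝ≥0∞) ≤ p := Fact.out
  set q := p.toReal with hq
  have hq1 : 1 ≤ q := by
    have := ENNReal.toReal_mono hpt hp1'
    simpa using this
  have hq0 : 0 < q := by linarith
  set η := (D - 1) / (D + 1) with hη
  have hD0 : 0 < D + 1 := by linarith
  have hη0 : 0 < η := div_pos (by linarith) hD0
  have hη1 : η < 1 := by
    rw [hη, div_lt_one hD0]; linarith
  have hηD : 1 + η = (1 - η) * D := by
    rw [hη]; field_simp; ring
  have hη2 : 0 < 1 - η := by linarith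
  obtain ⟨m, f, hm, hf⟩ := embedding_core (μ := μ) hpt hη0 hη1 n hn X hX
  refine ⟨m, f, (1 - η) ^ (1 / q), hm, by positivity, ?_⟩
  intro x y
  obtain ⟨h1, h2⟩ := hf x y
  have hqinv : q * (1 / q) = 1 := by field_simp
  have root : ∀ {a b : ℝ}, 0 ≤ a → 0 ≤ b → a ^ q ≤ b ^ q → a ≤ b := by
    intro a b ha hb hab
    exact (Real.rpow_le_rpow_iff ha hb hq0).mp hab
  set a := ‖f x - f y‖ with ha
  set b := ‖(x : Lp ℝ p μ) - y‖ with hb
  have ha0 : 0 ≤ a := norm_nonneg _
  have hb0 : 0 ≤ b := norm_nonneg _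
  have hs : ((1 - η) ^ (1 / q)) ^ q = 1 - η := by
    rw [← Real.rpow_mul hη2.le, one_div, inv_mul_cancel₀ hq0.ne', Real.rpow_one]
  constructor
  · apply root (by positivity) ha0
    rw [Real.mul_rpow (by positivity) hb0, hs]
    exact h1
  · have hDroot : D ^ (1 / q) ≤ D := by
      calc D ^ (1 / q) ≤ D ^ (1 : ℝ) :=
            Real.rpow_le_rpow_of_exponent_le hD.le (by
              rw [div_le_one hq0]; exact hq1)
        _ = D := Real.rpow_one D
    have hstep : a ≤ D ^ (1 / q) * (1 - η) ^ (1 / q) * b := by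
      apply root ha0 (by positivity)
      rw [Real.mul_rpow (by positivity) hb0, Real.mul_rpow (by positivity) (by positivity), hs,
        ← Real.rpow_mul (by linarith), one_div, inv_mul_cancel₀ hq0.ne', Real.rpow_one]
      calc a ^ q ≤ (1 + η) * b ^ q := h2
        _ = D * (1 - η) * b ^ q := by rw [hηD]; ring
    refine le_trans hstep ?_
    apply mul_le_mul_of_nonneg_right _ hb0
    exact mul_le_mul_of_nonneg_right hDroot (by positivity)

end Vale.Agent.Lib.P249
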